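import Mathlib

namespace Vale.Agent.P343

open Relation

/-- Rank and disagreement data on a monoid. -/
structure RankData (T : Type) [Monoid T] (D : Type) where
  rk : T → ℕ
  dis : T → T → Set D
  ctx : ∀ u x v : T, ∃ F : D → D, ∀ y : T, dis (u * x * v) (u * y * v) ⊆ F '' dis x y
  mul : ∀ f x y : T, f * f = f → f * x * f = x → f * y * f = y →
    dis f (x * y) ⊆ dis f x ∪ dis f y
  idem : ∀ f x : T, f * f = f → x * x = x → f * x * f = x →
    (dis f x).ncard + 2 * rk x ≤ 2 * rk f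
  drop : ∀ f y : T, rk f ≤ rk y + (dis f y).ncard
  eq_of_empty : ∀ f x : T, f * f = f → f * x * f = x → dis f x = ∅ → x = f
  self : ∀ f : T, dis f f = ∅

/-- A local copy of the monoid of binary relations on `X` as a quotient of a submonoid of `fTf`. -/
structure Setup (T : Type) [Monoid T] (X : Type) where
  f : T
  R : T → (X → X → Prop) → Prop
  idem : f * f = f
  loc : ∀ t b, R t b → f * t * f = t
  one : R f (fun p q => p = q)
  mul : ∀ t b t' b', R t b → R t' b' → R (t * t') (Comp b b')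
  surj : ∀ b, ∃ t, R t b
  func : ∀ t b b', R t b → R t b' → b = b'

/-- identity plus one edge -/
def eps {X : Type} (a b : X) : X → X → Prop := fun p q => p = q ∨ (p = a ∧ q = b)

theorem exists_idem_pow {T : Type} [Monoid T] [Finite T] (x : T) :
    ∃ n : ℕ, x ^ (n + 1) * x ^ (n + 1) = x ^ (n + 1) := by
  obtain ⟨i, j, hij, h⟩ : ∃ i j : ℕ, i < j ∧ x ^ i = x ^ j := by
    obtain ⟨i, j, hne, h⟩ := Finite.exists_ne_map_eq_of_infinite (fun n : ℕ => x ^ n)
    rcases lt_or_gt_of_ne hne with h1 | h1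
    · exact ⟨i, j, h1, h⟩
    · exact ⟨j, i, h1, h.symm⟩
  obtain ⟨p, rfl⟩ : ∃ p, j = i + (p + 1) := ⟨j - i - 1, by omega⟩
  have h1 : ∀ k m : ℕ, x ^ (i + m + k * (p + 1)) = x ^ (i + m) := by
    intro k m
    induction k with
    | zero => simp
    | succ k ih =>
      have : i + m + (k + 1) * (p + 1) = (i + (p + 1)) + (m + k * (p + 1)) := by ring
      rw [this, pow_add, ← h, ← pow_add, ← ih]
      congr 1
      ring
  obtain ⟨m, hm⟩ : ∃ m, (i + 1) * (p + 1) = i + m := ⟨(i + 1) * (p + 1) - i, by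
    have : i ≤ (i + 1) * (p + 1) := by nlinarith
    omega⟩
  obtain ⟨n, hn⟩ : ∃ n, (i + 1) * (p + 1) = n + 1 := ⟨(i + 1) * (p + 1) - 1, by
    have : 1 ≤ (i + 1) * (p + 1) := by nlinarith
    omega⟩
  refine ⟨n, ?_⟩
  rw [← hn, ← pow_add]
  have := h1 (i + 1) m
  rw [← hm] at this
  exact this

section
variable {T : Type} [Monoid T] {X : Type}

theorem Setup.pow (S : Setup T X) {t : T} {b : X → X → Prop} (h : S.R t b)
    (hb : Comp b b = b) (n : ℕ) : S.R (t ^ (n + 1)) b := by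
  induction n with
  | zero => simpa using h
  | succ n ih =>
    rw [pow_succ]
    have := S.mul _ _ _ _ ih h
    rwa [hb] at this

theorem loc_left {f t : T} (hf : f * f = f) (h : f * t * f = t) : f * t = t := by
  calc f * t = f * (f * t * f) := by rw [h]
    _ = (f * f) * t * f := by simp only [mul_assoc]
    _ = t := by rw [hf, h]

theorem loc_right {f t : T} (hf : f * f = f) (h : f * t * f = t) : t * f = t := by
  calc t * f = (f * t * f) * f := by rw [h]
    _ = f * t * (f * f) := by simp only [mul_assoc]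
    _ = t := by rw [hf, h]

theorem loc_mul {f x y : T} (hf : f * f = f) (hx : f * x * f = x) (hy : f * y * f = y) :
    f * (x * y) * f = x * y := by
  calc f * (x * y) * f = (f * x) * (y * f) := by simp only [mul_assoc]
    _ = x * y := by rw [loc_left hf hx, loc_right hf hy]

theorem loc_pow {f x : T} (hf : f * f = f) (hx : f * x * f = x) (n : ℕ) :
    f * x ^ (n + 1) * f = x ^ (n + 1) := by
  induction n with
  | zero => simpa using hx
  | succ n ih => rw [pow_succ]; exact loc_mul hf ih hx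

theorem loc_sandwich {f x : T} (hf : f * f = f) : f * (f * x * f) * f = f * x * f := by
  calc f * (f * x * f) * f = (f * f) * x * (f * f) := by simp only [mul_assoc]
    _ = f * x * f := by rw [hf]

theorem RankData.pow {D : Type} (K : RankData T D) {f x : T} (hf : f * f = f)
    (hx : f * x * f = x) (n : ℕ) : K.dis f (x ^ (n + 1)) ⊆ K.dis f x := by
  induction n with
  | zero => simp
  | succ n ih =>
    rw [pow_succ]
    exact (K.mul f _ _ hf (loc_pow hf hx n) hx).trans (Set.union_subset ih subset_rfl)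

/-- Restriction of a setup to the middle block of block triangular relations. -/
def Setup.pull (S : Setup T X) {X' : Type} (g : T) (P : X → X → Prop) (hP : S.R g P)
    (hg : g * g = g) (ι : X' → X) (hι : Function.Injective ι) (lev : X → ℕ)
    (h1 : ∀ p, lev p = 1 ↔ ∃ i, ι i = p) (h2 : ∀ p q, P p q → lev p ≤ lev q)
    (h3 : ∀ i j, P (ι i) (ι j) ↔ i = j) : Setup T X' where
  f := g
  R t b' := g * t * g = t ∧ ∃ b, S.R t b ∧ (∀ p q, b p q → lev p ≤ lev q) ∧
    b' = fun i j => b (ι i) (ι j)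
  idem := hg
  loc t b h := h.1
  one := ⟨by rw [hg, hg], P, hP, h2, by
    funext i j
    exact propext (h3 i j).symm⟩
  mul t b t' b' h h' := by
    obtain ⟨h0, c, hc, hc2, rfl⟩ := h
    obtain ⟨h0', c', hc', hc2', rfl⟩ := h'
    refine ⟨loc_mul hg h0 h0', Comp c c', S.mul _ _ _ _ hc hc', ?_, ?_⟩
    · rintro p q ⟨r, hr1, hr2⟩
      exact (hc2 _ _ hr1).trans (hc2' _ _ hr2)
    · funext i j
      apply propext
      constructor
      · rintro ⟨k, hk1, hk2⟩
        exact ⟨ι k, hk1, hk2⟩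
      · rintro ⟨r, hr1, hr2⟩
        have e1 := hc2 _ _ hr1
        have e2 := hc2' _ _ hr2
        rw [(h1 (ι i)).2 ⟨i, rfl⟩] at e1
        rw [(h1 (ι j)).2 ⟨j, rfl⟩] at e2
        obtain ⟨k, rfl⟩ := (h1 r).1 (le_antisymm e2 e1)
        exact ⟨k, hr1, hr2⟩
  surj b' := by
    obtain ⟨t0, ht0⟩ := S.surj (fun p q => ∃ i j, ι i = p ∧ ι j = q ∧ b' i j)
    refine ⟨g * t0 * g, loc_sandwich hg, _, S.mul _ _ _ _ (S.mul _ _ _ _ hP ht0) hP, ?_, ?_⟩
    · rintro p q ⟨r, ⟨s, hs1, i, j, rfl, rfl, _⟩, hr2⟩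
      have e1 := h2 _ _ hs1
      have e2 := h2 _ _ hr2
      rw [(h1 (ι i)).2 ⟨i, rfl⟩] at e1
      rw [(h1 (ι j)).2 ⟨j, rfl⟩] at e2
      exact e1.trans e2
    · funext i j
      apply propext
      constructor
      · intro h
        exact ⟨ι j, ⟨ι i, (h3 i i).2 rfl, i, j, rfl, rfl, h⟩, (h3 j j).2 rfl⟩
      · rintro ⟨r, ⟨s, hs1, i', j', rfl, rfl, h⟩, hr2⟩
        rw [(h3 _ _).1 hs1, ← (h3 _ _).1 hr2]
        exact h
  func t b b' h h' := by
    obtain ⟨_, c, hc, _, rfl⟩ := h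
    obtain ⟨_, c', hc', _, rfl⟩ := h'
    rw [S.func _ _ _ hc hc']

theorem comp_id_id : Comp (fun p q : X => p = q) (fun p q : X => p = q) = fun p q => p = q := by
  funext p q
  apply propext
  constructor
  · rintro ⟨r, rfl, rfl⟩; rfl
  · rintro rfl; exact ⟨p, rfl, rfl⟩

theorem exists_perm_pair {p q a b : X} (hpq : p ≠ q) (hab : a ≠ b) :
    ∃ s : Equiv.Perm X, s p = a ∧ s q = b := by
  classical
  refine ⟨(Equiv.swap p a).trans (Equiv.swap (Equiv.swap p a q) b), ?_, ?_⟩
  · simp only [Equiv.trans_apply, Equiv.swap_apply_left]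
    apply Equiv.swap_apply_of_ne_of_ne
    · intro h
      have : Equiv.swap p a p = Equiv.swap p a q := by rw [← h]; simp
      exact hpq ((Equiv.swap p a).injective this)
    · exact hab
  · simp

/-- Normalisation: cheap lifts of every single-edge relation. -/
theorem Setup.cheap [Finite T] {D : Type} [Finite D] (K : RankData T D) (S : Setup T X)
    {a b : X} (hab : a ≠ b) {x : T} (hx : S.R x (eps a b)) :
    ∃ e : T, e * e = e ∧ S.R e (fun p q => p = q) ∧
      ∀ p q : X, p ≠ q → ∃ t, S.R t (eps p q) ∧ e * t * e = t ∧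
        (K.dis e t).ncard ≤ (K.dis S.f x).ncard := by
  classical
  have hex : ∃ r, ∃ e : T, (e * e = e ∧ S.R e (fun p q => p = q)) ∧ K.rk e = r :=
    ⟨_, S.f, ⟨S.idem, S.one⟩, rfl⟩
  obtain ⟨e, ⟨he, he1⟩, hr⟩ := Nat.find_spec hex
  have hmin : ∀ e' : T, e' * e' = e' → S.R e' (fun p q => p = q) → K.rk e ≤ K.rk e' := by
    intro e' h1 h2
    rw [hr]
    exact Nat.find_min' hex ⟨e', ⟨h1, h2⟩, rfl⟩
  refine ⟨e, he, he1, ?_⟩
  intro p q hpq
  obtain ⟨s, hs1, hs2⟩ := exists_perm_pair hpq hab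
  obtain ⟨u0, hu0⟩ := S.surj (fun i j => s i = j)
  obtain ⟨v0, hv0⟩ := S.surj (fun i j => i = s j)
  set g := e * (u0 * v0) * e with hg
  have hgR : S.R g (fun p q => p = q) := by
    have := S.mul _ _ _ _ (S.mul _ _ _ _ he1 (S.mul _ _ _ _ hu0 hv0)) he1
    convert this using 1
    funext i j
    apply propext
    constructor
    · rintro rfl
      exact ⟨i, ⟨i, rfl, s i, rfl, rfl⟩, rfl⟩
    · rintro ⟨_, ⟨_, rfl, _, rfl, h⟩, rfl⟩
      exact s.injective h
  have hgl : e * g * e = g := loc_sandwich he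
  obtain ⟨n, hn⟩ := exists_idem_pow g
  have hgn : g ^ (n + 1) = e := by
    have h1 := K.idem e _ he hn (loc_pow he hgl n)
    have h2 := hmin _ hn (S.pow hgR comp_id_id n)
    apply K.eq_of_empty e _ he (loc_pow he hgl n)
    rw [← Set.ncard_eq_zero (Set.toFinite _)]
    omega
  have hpowR : S.R (e * g ^ n * e) (fun p q => p = q) := by
    rcases n with _ | n
    · simp only [pow_zero, mul_one, he]; exact he1
    · rw [loc_pow he hgl n]; exact S.pow hgR comp_id_id n
  have huv : e * u0 * S.f * (v0 * (e * g ^ n * e)) = e := by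
    have h1 : u0 * S.f = u0 := loc_right S.idem (S.loc _ _ hu0)
    calc e * u0 * S.f * (v0 * (e * g ^ n * e))
        = e * (u0 * S.f) * (v0 * (e * g ^ n * e)) := by simp only [mul_assoc]
      _ = (e * (u0 * v0) * e) * g ^ n * e := by rw [h1]; simp only [mul_assoc]
      _ = g ^ (n + 1) * e := by rw [← hg, ← pow_succ']
      _ = e := by rw [hgn, he]
  refine ⟨e * u0 * x * (v0 * (e * g ^ n * e)), ?_, ?_, ?_⟩
  · have := S.mul _ _ _ _ (S.mul _ _ _ _ (S.mul _ _ _ _ he1 hu0) hx) (S.mul _ _ _ _ hv0 hpowR)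
    convert this using 1
    funext i j
    apply propext
    constructor
    · rintro (rfl | ⟨rfl, rfl⟩)
      · exact ⟨s i, ⟨s i, ⟨i, rfl, rfl⟩, Or.inl rfl⟩, i, rfl, rfl⟩
      · exact ⟨s j, ⟨s i, ⟨i, rfl, rfl⟩, Or.inr ⟨hs1, hs2⟩⟩, j, rfl, rfl⟩
    · rintro ⟨_, ⟨_, ⟨_, rfl, rfl⟩, h⟩, _, rfl, rfl⟩
      rcases h with h | ⟨h1, h2⟩
      · exact Or.inl (s.injective h)
      · exact Or.inr ⟨s.injective (h1.trans hs1.symm), s.injective (h2.trans hs2.symm)⟩
  · calc e * (e * u0 * x * (v0 * (e * g ^ n * e))) * e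
        = (e * e) * u0 * x * (v0 * (e * g ^ n * (e * e))) := by simp only [mul_assoc]
      _ = _ := by rw [he]
  · obtain ⟨F, hF⟩ := K.ctx (e * u0) S.f (v0 * (e * g ^ n * e))
    have := hF x
    rw [huv] at this
    exact (Set.ncard_le_ncard this (Set.toFinite _)).trans (Set.ncard_image_le (Set.toFinite _))

end

/-- The gadget type: free points, eight sources, eight sinks, one midpoint. -/
inductive Gad (W : Type) : Type
  | w : W → Gad W
  | a : Fin 8 → Gad W
  | b : Fin 8 → Gad W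
  | c : Gad W

/-- The chain relations: midpoint killed, and the edges of `E` added. -/
def chainRel {W : Type} (E : Finset (Fin 8 × Fin 8)) : Gad W → Gad W → Prop :=
  fun p q => (p = q ∧ p ≠ Gad.c) ∨ ∃ i l, (i, l) ∈ E ∧ p = Gad.a i ∧ q = Gad.b l

theorem chainRel_comp {W : Type} (E E' : Finset (Fin 8 × Fin 8)) :
    Comp (chainRel (W := W) E) (chainRel E') = chainRel (E ∪ E') := by
  funext p q
  apply propext
  constructor
  · rintro ⟨r, h1 | ⟨i, l, h1, rfl, rfl⟩, h2 | ⟨i', l', h2, h3, rfl⟩⟩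
    · obtain ⟨rfl, h1⟩ := h1
      exact Or.inl h2
    · obtain ⟨rfl, h1⟩ := h1
      exact Or.inr ⟨i', l', Finset.mem_union_right _ h2, h3, rfl⟩
    · obtain ⟨rfl, h2⟩ := h2
      exact Or.inr ⟨i, l, Finset.mem_union_left _ h1, rfl, rfl⟩
    · cases h3
  · rintro (⟨rfl, h⟩ | ⟨i, l, h, rfl, rfl⟩)
    · exact ⟨p, Or.inl ⟨rfl, h⟩, Or.inl ⟨rfl, h⟩⟩
    · rcases Finset.mem_union.1 h with h | h
      · exact ⟨_, Or.inr ⟨i, l, h, rfl, rfl⟩, Or.inl ⟨rfl, by simp⟩⟩
      · exact ⟨_, Or.inl ⟨rfl, by simp⟩, Or.inr ⟨i, l, h, rfl, rfl⟩⟩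

theorem chainRel_gen {W : Type} (i l : Fin 8) :
    Comp (Comp (chainRel (W := W) ∅) (Comp (eps (Gad.a i) Gad.c) (eps Gad.c (Gad.b l))))
      (chainRel ∅) = chainRel {(i, l)} := by
  funext p q
  apply propext
  constructor
  · rintro ⟨r, ⟨s, h1, t, h2, h3⟩, h4⟩
    rcases h1 with ⟨rfl, h1⟩ | ⟨_, _, h, _⟩
    swap
    · simp at h
    rcases h4 with ⟨rfl, h4⟩ | ⟨_, _, h, _⟩
    swap
    · simp at h
    rcases h2 with rfl | ⟨rfl, rfl⟩
    · rcases h3 with rfl | ⟨rfl, rfl⟩
      · exact Or.inl ⟨rfl, h1⟩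
      · exact absurd rfl h1
    · rcases h3 with rfl | ⟨_, rfl⟩
      · exact absurd rfl h4
      · exact Or.inr ⟨i, l, by simp, rfl, rfl⟩
  · rintro (⟨rfl, h⟩ | ⟨i', l', h, rfl, rfl⟩)
    · exact ⟨p, ⟨p, Or.inl ⟨rfl, h⟩, p, Or.inl rfl, Or.inl rfl⟩, Or.inl ⟨rfl, h⟩⟩
    · simp only [Finset.mem_singleton, Prod.mk.injEq] at h
      obtain ⟨rfl, rfl⟩ := h
      exact ⟨_, ⟨_, Or.inl ⟨rfl, by simp⟩, Gad.c, Or.inr ⟨rfl, rfl⟩, Or.inr ⟨rfl, rfl⟩⟩,
        Or.inl ⟨rfl, by simp⟩⟩

/-- The embedding of the smaller point set. -/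
def gadEmb {W : Type} (i l : Fin 8) : W ⊕ Bool → Gad W
  | Sum.inl x => Gad.w x
  | Sum.inr false => Gad.a i
  | Sum.inr true => Gad.b l

/-- The block levels. -/
def gadLev {W : Type} (i l : Fin 8) : Gad W → ℕ
  | Gad.w _ => 1
  | Gad.a j => if j = i then 1 else 0
  | Gad.b j => if j = l then 1 else 2
  | Gad.c => 2

theorem gadEmb_inj {W : Type} (i l : Fin 8) : Function.Injective (gadEmb (W := W) i l) := by
  rintro (x | _ | _) (y | _ | _) h <;> simp_all [gadEmb]

theorem gadLev_one {W : Type} (i l : Fin 8) (p : Gad W) :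
    gadLev i l p = 1 ↔ ∃ k, gadEmb i l k = p := by
  constructor
  · intro h
    cases p with
    | w x => exact ⟨Sum.inl x, rfl⟩
    | a j =>
      by_cases hj : j = i
      · subst hj; exact ⟨Sum.inr false, rfl⟩
      · simp [gadLev, hj] at h
    | b j =>
      by_cases hj : j = l
      · subst hj; exact ⟨Sum.inr true, rfl⟩
      · simp [gadLev, hj] at h
    | c => simp [gadLev] at h
  · rintro ⟨(x | _ | _), rfl⟩ <;> simp [gadEmb, gadLev]

theorem chainRel_tri {W : Type} (i l : Fin 8) (E : Finset (Fin 8 × Fin 8)) (p q : Gad W)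
    (h : chainRel E p q) : gadLev i l p ≤ gadLev i l q := by
  rcases h with ⟨rfl, _⟩ | ⟨i', l', _, rfl, rfl⟩
  · exact le_rfl
  · simp only [gadLev]
    split_ifs <;> omega

theorem chainRel_emb {W : Type} (i l : Fin 8) (E : Finset (Fin 8 × Fin 8)) (j k : W ⊕ Bool) :
    chainRel E (gadEmb i l j) (gadEmb i l k) ↔
      j = k ∨ ((i, l) ∈ E ∧ j = Sum.inr false ∧ k = Sum.inr true) := by
  rcases j with x | _ | _ <;> rcases k with y | _ | _ <;> simp [chainRel, gadEmb]

theorem step {T : Type} [Monoid T] [Finite T] {D : Type} [Finite D] (K : RankData T D)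
    {W : Type} (N : ℕ)
    (ih : ∀ (S : Setup T (W ⊕ Bool)) (x : T), S.R x (eps (Sum.inr false) (Sum.inr true)) →
      N ≤ (K.dis S.f x).ncard)
    (S : Setup T (Gad W)) {a b : Gad W} (hab : a ≠ b) {x : T} (hx : S.R x (eps a b)) :
    2 * N ≤ (K.dis S.f x).ncard := by
  classical
  obtain ⟨e, he, he1, hch⟩ := S.cheap K hab hx
  set d := (K.dis S.f x).ncard with hd
  choose ta hta1 hta2 hta3 using fun i : Fin 8 => hch (Gad.a i) Gad.c (by simp)
  choose tb htb1 htb2 htb3 using fun l : Fin 8 => hch Gad.c (Gad.b l) (by simp)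
  obtain ⟨k, hk, hkR, hke⟩ : ∃ k : T, k * k = k ∧ S.R k (chainRel ∅) ∧ e * k * e = k := by
    obtain ⟨k0, hk0⟩ := S.surj (chainRel ∅)
    have h1 : S.R (e * k0 * e) (chainRel ∅) := by
      have := S.mul _ _ _ _ (S.mul _ _ _ _ he1 hk0) he1
      convert this using 1
      funext p q
      apply propext
      constructor
      · intro h; exact ⟨q, ⟨p, rfl, h⟩, rfl⟩
      · rintro ⟨_, ⟨_, rfl, h⟩, rfl⟩; exact h
    obtain ⟨n, hn⟩ := exists_idem_pow (e * k0 * e)
    exact ⟨_, hn, S.pow h1 (by rw [chainRel_comp]; simp) n, loc_pow he (loc_sandwich he) n⟩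
  have hkek : k * e * k = k := by rw [loc_right he hke, hk]
  obtain ⟨F, hF⟩ := K.ctx k e k
  rw [hkek] at hF
  set Z : Set D := F '' ((⋃ i, K.dis e (ta i)) ∪ (⋃ l, K.dis e (tb l))) with hZ
  have hZc : Z.ncard ≤ 16 * d := by
    have hU : ∀ s : Fin 8 → Set D, (∀ i, (s i).ncard ≤ d) → (⋃ i, s i).ncard ≤ 8 * d := by
      intro s hs
      have h1 : (⋃ i, s i).ncard ≤ ∑ i, (s i).ncard := Set.ncard_iUnion_le_of_fintype s
      have h2 : ∑ i, (s i).ncard ≤ ∑ _i : Fin 8, d := Finset.sum_le_sum fun i _ => hs i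
      simp only [Finset.sum_const, Finset.card_univ, Fintype.card_fin, smul_eq_mul] at h2
      omega
    have h1 := hU _ hta3
    have h2 := hU _ htb3
    have h3 := Set.ncard_union_le (⋃ i, K.dis e (ta i)) (⋃ l, K.dis e (tb l))
    have h4 : Z.ncard ≤ _ := Set.ncard_image_le (Set.toFinite _)
    omega
  have hy : ∀ i l, ∃ y : T, S.R y (chainRel {(i, l)}) ∧ k * y * k = y ∧ K.dis k y ⊆ Z := by
    intro i l
    refine ⟨k * (ta i * tb l) * k, ?_, loc_sandwich hk, ?_⟩
    · rw [← chainRel_gen]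
      exact S.mul _ _ _ _ (S.mul _ _ _ _ hkR (S.mul _ _ _ _ (hta1 i) (htb1 l))) hkR
    · refine (hF _).trans (Set.image_mono ?_)
      refine (K.mul e _ _ he (hta2 i) (htb2 l)).trans (Set.union_subset_union ?_ ?_)
      · exact Set.subset_iUnion (fun i => K.dis e (ta i)) i
      · exact Set.subset_iUnion (fun l => K.dis e (tb l)) l
  have hchain : ∀ E : Finset (Fin 8 × Fin 8), ∃ g : T, g * g = g ∧ S.R g (chainRel E) ∧
      k * g * k = g ∧ K.dis k g ⊆ Z ∧ 2 * K.rk g + E.card * N ≤ 2 * K.rk k := by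
    intro E
    induction E using Finset.induction_on with
    | empty => exact ⟨k, hk, hkR, by rw [hk, hk], by rw [K.self]; exact Set.empty_subset _, by simp⟩
    | insert il E hE ihE =>
      obtain ⟨i, l⟩ := il
      obtain ⟨g, hg, hgR, hgk, hgZ, hgr⟩ := ihE
      obtain ⟨y, hyR, hyk, hyZ⟩ := hy i l
      have h1 : S.R (g * y * g) (chainRel (insert (i, l) E)) := by
        have := S.mul _ _ _ _ (S.mul _ _ _ _ hgR hyR) hgR
        rw [chainRel_comp, chainRel_comp] at this
        convert this using 2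
        ext z
        simp only [Finset.mem_insert, Finset.mem_union, Finset.mem_singleton]
        tauto
      obtain ⟨n, hn⟩ := exists_idem_pow (g * y * g)
      have hl : k * (g * y * g) * k = g * y * g := loc_mul hk (loc_mul hk hgk hyk) hgk
      have h2 : S.R ((g * y * g) ^ (n + 1)) (chainRel (insert (i, l) E)) :=
        S.pow h1 (by rw [chainRel_comp]; simp) n
      have h3 : g * (g * y * g) ^ (n + 1) * g = (g * y * g) ^ (n + 1) :=
        loc_pow hg (loc_sandwich hg) n
      refine ⟨_, hn, h2, loc_pow hk hl n, ?_, ?_⟩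
      · refine (K.pow hk hl n).trans ((K.mul k _ _ hk (loc_mul hk hgk hyk) hgk).trans ?_)
        exact Set.union_subset ((K.mul k _ _ hk hgk hyk).trans (Set.union_subset hgZ hyZ)) hgZ
      · have h4 := ih (S.pull g (chainRel E) hgR hg (gadEmb i l) (gadEmb_inj i l) (gadLev i l)
          (gadLev_one i l) (chainRel_tri i l E) (by
            intro j j'
            rw [chainRel_emb]
            simp [hE])) ((g * y * g) ^ (n + 1)) ⟨h3, _, h2, chainRel_tri i l _, by
              funext j j'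
              apply propext
              rw [chainRel_emb]
              simp [eps]⟩
        have h5 := K.idem g _ hg hn h3
        change N ≤ (K.dis g _).ncard at h4
        rw [Finset.card_insert_of_notMem hE]
        nlinarith
  obtain ⟨g, _, _, _, hgZ, hgr⟩ := hchain Finset.univ
  have h1 := K.drop k g
  have h2 := Set.ncard_le_ncard hgZ (Set.toFinite _)
  simp only [Finset.card_univ, Fintype.card_prod, Fintype.card_fin] at hgr
  omega

/-- The gadget type as a sum type. -/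
def gadEquiv (W : Type) : Gad W ≃ W ⊕ Fin 8 ⊕ Fin 8 ⊕ Unit where
  toFun
    | Gad.w x => Sum.inl x
    | Gad.a i => Sum.inr (Sum.inl i)
    | Gad.b i => Sum.inr (Sum.inr (Sum.inl i))
    | Gad.c => Sum.inr (Sum.inr (Sum.inr ()))
  invFun
    | Sum.inl x => Gad.w x
    | Sum.inr (Sum.inl i) => Gad.a i
    | Sum.inr (Sum.inr (Sum.inl i)) => Gad.b i
    | Sum.inr (Sum.inr (Sum.inr _)) => Gad.c
  left_inv p := by cases p <;> rfl
  right_inv p := by rcases p with _ | _ | _ | _ <;> rfl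

theorem lower_bound {T : Type} [Monoid T] [Finite T] {D : Type} [Finite D] (K : RankData T D)
    (n : ℕ) : ∀ (X : Type) [Fintype X], 2 + 15 * n ≤ Fintype.card X →
      ∀ (S : Setup T X) (a b : X), a ≠ b → ∀ x : T, S.R x (eps a b) →
        2 ^ n ≤ (K.dis S.f x).ncard := by
  induction n with
  | zero =>
    intro X _ _ S a b hab x hx
    rw [pow_zero, Nat.one_le_iff_ne_zero]
    intro h
    rw [Set.ncard_eq_zero (Set.toFinite _)] at h
    have h1 := K.eq_of_empty _ _ S.idem (S.loc _ _ hx) h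
    rw [h1] at hx
    have h2 := S.func _ _ _ hx S.one
    have h3 : eps a b a b := Or.inr ⟨rfl, rfl⟩
    rw [h2] at h3
    exact hab h3
  | succ n ih =>
    intro X _ hX S a b hab x hx
    have hc : Fintype.card (Fin (Fintype.card X - 17) ⊕ Fin 8 ⊕ Fin 8 ⊕ Unit) = Fintype.card X := by
      simp only [Fintype.card_sum, Fintype.card_fin, Fintype.card_unit]
      omega
    let φ : Gad (Fin (Fintype.card X - 17)) ≃ X :=
      (gadEquiv _).trans (Fintype.equivOfCardEq hc)
    let S' := S.pull S.f (fun p q => p = q) S.one S.idem φ φ.injective (fun _ => 1)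
      (fun p => by simpa using ⟨φ.symm p, by simp⟩) (fun _ _ _ => le_rfl)
      (fun i j => φ.injective.eq_iff)
    have hx' : S'.R x (eps (φ.symm a) (φ.symm b)) := by
      refine ⟨S.loc _ _ hx, _, hx, fun _ _ _ => le_rfl, ?_⟩
      funext i j
      apply propext
      simp only [eps, φ.injective.eq_iff, Equiv.eq_symm_apply]
    have := step K (2 ^ n) (fun S0 x0 h0 => ih _ (by
      simp only [Fintype.card_sum, Fintype.card_fin, Fintype.card_bool]
      omega) S0 _ _ (by simp) x0 h0) S' (fun h => hab (φ.symm.injective h)) hx'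
    rw [pow_succ']
    exact this

end Vale.Agent.P343
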