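import Mathlib

namespace Vale.Agent.P343

/-- A tape cell: the left endmarker, the right endmarker, or an input letter. -/
inductive Cell (σ : Type) : Type
  | left : Cell σ
  | right : Cell σ
  | letter : σ → Cell σ

/-- Head moves: left, stay, right. -/
inductive Move : Type
  | L : Move
  | S : Move
  | R : Move

/-- The new head position after a move. -/
def Move.apply : Move → ℕ → ℕ
  | Move.L, i => i - 1
  | Move.S, i => i
  | Move.R, i => i + 1

/-- A two-way nondeterministic finite automaton with input alphabet `σ` and state set `Q`.
The head never moves beyond an endmarker. -/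
structure TwoWay (σ Q : Type) where
  start : Q
  accept : Set Q
  trans : Q → Cell σ → Set (Q × Move)
  noLeft : ∀ q q', (q', Move.L) ∉ trans q Cell.left
  noRight : ∀ q q', (q', Move.R) ∉ trans q Cell.right

/-- The tape holding the word `w` between the endmarkers. -/
def tape {σ : Type} (w : List σ) : List (Cell σ) :=
  Cell.left :: (w.map Cell.letter ++ [Cell.right])

/-- One computation step on input `w` between configurations (state, head position). -/
def TwoWay.Step {σ Q : Type} (A : TwoWay σ Q) (w : List σ) (c c' : Q × ℕ) : Prop :=
  ∃ (s : Cell σ) (m : Move),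
    (tape w)[c.2]? = some s ∧ (c'.1, m) ∈ A.trans c.1 s ∧ c'.2 = m.apply c.2

/-- The accepted language: some finite computation from the initial state on the left
endmarker reaches an accepting state. -/
def TwoWay.lang {σ Q : Type} (A : TwoWay σ Q) : Set (List σ) :=
  {w | ∃ q ∈ A.accept, ∃ i : ℕ, Relation.ReflTransGen (A.Step w) (A.start, 0) (q, i)}

/-- Deterministic: at most one transition for each state and scanned symbol. -/
def TwoWay.IsDet {σ Q : Type} (A : TwoWay σ Q) : Prop :=
  ∀ q s, (A.trans q s).Subsingleton

/-- One-way: the head never moves left. -/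
def TwoWay.IsOneWay {σ Q : Type} (A : TwoWay σ Q) : Prop :=
  ∀ q s q', (q', Move.L) ∉ A.trans q s

end Vale.Agent.P343
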