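import Mathlib

namespace Vale.Agent.P343

/-- Behaviours: relations between directed entry states and directed exit states
(`true` means moving right). -/
abbrev Beh (Q : Type) : Type := Q × Bool → Q × Bool → Prop

variable {Q : Type}

/-- Deterministic behaviours. -/
def Func (x : Beh Q) : Prop := ∀ d o o', x d o → x d o' → o = o'

/-- The zigzag from the boundary between two pieces to the final exit. -/
inductive Go (x y : Beh Q) : Q × Bool → Q × Bool → Prop
  | rr (q q' : Q) : y (q, true) (q', true) → Go x y (q, true) (q', true)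
  | rl (q q' : Q) (o : Q × Bool) : y (q, true) (q', false) → Go x y (q', false) o →
      Go x y (q, true) o
  | ll (q q' : Q) : x (q, false) (q', false) → Go x y (q, false) (q', false)
  | lr (q q' : Q) (o : Q × Bool) : x (q, false) (q', true) → Go x y (q', true) o →
      Go x y (q, false) o

/-- The composite behaviour. -/
def star (x y : Beh Q) : Beh Q := fun d o =>
  (d.2 = true ∧ ((o.2 = false ∧ x d o) ∨ ∃ q', x d (q', true) ∧ Go x y (q', true) o)) ∨
  (d.2 = false ∧ ((o.2 = true ∧ y d o) ∨ ∃ q', y d (q', false) ∧ Go x y (q', false) o))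

theorem star_true {x y : Beh Q} {q : Q} {o : Q × Bool} :
    star x y (q, true) o ↔
      (o.2 = false ∧ x (q, true) o) ∨ ∃ q', x (q, true) (q', true) ∧ Go x y (q', true) o := by
  simp [star]

theorem star_false {x y : Beh Q} {q : Q} {o : Q × Bool} :
    star x y (q, false) o ↔
      (o.2 = true ∧ y (q, false) o) ∨ ∃ q', y (q, false) (q', false) ∧ Go x y (q', false) o := by
  simp [star]

theorem Go.func {x y : Beh Q} (hx : Func x) (hy : Func y) {m o o' : Q × Bool}
    (h : Go x y m o) (h' : Go x y m o') : o = o' := by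
  induction h generalizing o' with
  | rr q q' h1 =>
    cases h' with
    | rr _ q'' h2 => exact hy _ _ _ h1 h2
    | rl _ q'' _ h2 _ => exact absurd (hy _ _ _ h1 h2) (by simp)
  | rl q q' o h1 _ ih =>
    cases h' with
    | rr _ q'' h2 => exact absurd (hy _ _ _ h1 h2) (by simp)
    | rl _ q'' _ h2 h3 =>
      have := hy _ _ _ h1 h2
      simp only [Prod.mk.injEq, and_true] at this
      subst this
      exact ih h3
  | ll q q' h1 =>
    cases h' with
    | ll _ q'' h2 => exact hx _ _ _ h1 h2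
    | lr _ q'' _ h2 _ => exact absurd (hx _ _ _ h1 h2) (by simp)
  | lr q q' o h1 _ ih =>
    cases h' with
    | ll _ q'' h2 => exact absurd (hx _ _ _ h1 h2) (by simp)
    | lr _ q'' _ h2 h3 =>
      have := hx _ _ _ h1 h2
      simp only [Prod.mk.injEq, and_true] at this
      subst this
      exact ih h3

/-- Outputs of `x` at the entries where `y` disagrees. -/
def dis (x y : Beh Q) : Set (Q × Bool) := {o | ∃ d, x d o ∧ ¬ y d o}

/-- Through outputs. -/
def thr (x : Beh Q) : Set (Q × Bool) := {o | ∃ d, d.2 = o.2 ∧ x d o}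

theorem exists_choice {D : Type} (P : D → D → Prop) (hP : ∀ s o o', P s o → P s o' → o = o') :
    ∃ F : D → D, ∀ s o, P s o → F s = o := by
  classical
  refine ⟨fun s => if h : ∃ o, P s o then h.choose else s, ?_⟩
  intro s o h
  have h' : ∃ o, P s o := ⟨o, h⟩
  simp only [h', dif_pos]
  exact hP _ _ _ h'.choose_spec h

theorem Go.diff_left {x y v : Beh Q} {m o : Q × Bool} (h : Go x v m o) (hn : ¬ Go y v m o) :
    ∃ s ∈ dis x y, (s.2 = false ∧ s = o) ∨ (s.2 = true ∧ Go x v s o) := by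
  induction h with
  | rr q q' h1 => exact absurd (Go.rr q q' h1) hn
  | rl q q' o h1 _ ih => exact ih fun h => hn (Go.rl q q' o h1 h)
  | ll q q' h1 =>
    exact ⟨(q', false), ⟨_, h1, fun h => hn (Go.ll q q' h)⟩, Or.inl ⟨rfl, rfl⟩⟩
  | lr q q' o h1 h2 ih =>
    by_cases hy : y (q, false) (q', true)
    · exact ih fun h => hn (Go.lr q q' o hy h)
    · exact ⟨(q', true), ⟨_, h1, hy⟩, Or.inr ⟨rfl, h2⟩⟩

theorem Go.diff_right {x y u : Beh Q} {m o : Q × Bool} (h : Go u x m o) (hn : ¬ Go u y m o) :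
    ∃ s ∈ dis x y, (s.2 = true ∧ s = o) ∨ (s.2 = false ∧ Go u x s o) := by
  induction h with
  | ll q q' h1 => exact absurd (Go.ll q q' h1) hn
  | lr q q' o h1 _ ih => exact ih fun h => hn (Go.lr q q' o h1 h)
  | rr q q' h1 =>
    exact ⟨(q', true), ⟨_, h1, fun h => hn (Go.rr q q' h)⟩, Or.inl ⟨rfl, rfl⟩⟩
  | rl q q' o h1 h2 ih =>
    by_cases hy : y (q, true) (q', false)
    · exact ih fun h => hn (Go.rl q q' o hy h)
    · exact ⟨(q', false), ⟨_, h1, hy⟩, Or.inr ⟨rfl, h2⟩⟩

theorem dis_star_right {x v : Beh Q} (hx : Func x) (hv : Func v) :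
    ∃ F : Q × Bool → Q × Bool, ∀ y, dis (star x v) (star y v) ⊆ F '' dis x y := by
  obtain ⟨F, hF⟩ := exists_choice
    (fun s o : Q × Bool => (s.2 = false ∧ s = o) ∨ (s.2 = true ∧ Go x v s o)) (by
      rintro s o o' (⟨h1, rfl⟩ | ⟨h1, h2⟩) (⟨h3, rfl⟩ | ⟨h3, h4⟩)
      · rfl
      · simp [h1] at h3
      · simp [h1] at h3
      · exact h2.func hx hv h4)
  refine ⟨F, ?_⟩
  rintro y o ⟨⟨q, b⟩, h1, h2⟩
  suffices ∃ s ∈ dis x y, (s.2 = false ∧ s = o) ∨ (s.2 = true ∧ Go x v s o) by
    obtain ⟨s, hs, h⟩ := this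
    exact ⟨s, hs, hF _ _ h⟩
  cases b with
  | true =>
    rw [star_true] at h1 h2
    rcases h1 with ⟨h1, h3⟩ | ⟨q', h1, h3⟩
    · exact ⟨o, ⟨_, h3, fun h => h2 (Or.inl ⟨h1, h⟩)⟩, Or.inl ⟨h1, rfl⟩⟩
    · by_cases hy : y (q, true) (q', true)
      · exact h3.diff_left fun h => h2 (Or.inr ⟨q', hy, h⟩)
      · exact ⟨(q', true), ⟨_, h1, hy⟩, Or.inr ⟨rfl, h3⟩⟩
  | false =>
    rw [star_false] at h1 h2
    rcases h1 with h1 | ⟨q', h1, h3⟩
    · exact absurd (Or.inl h1) h2
    · exact h3.diff_left fun h => h2 (Or.inr ⟨q', h1, h⟩)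

theorem dis_star_left {x u : Beh Q} (hx : Func x) (hu : Func u) :
    ∃ F : Q × Bool → Q × Bool, ∀ y, dis (star u x) (star u y) ⊆ F '' dis x y := by
  obtain ⟨F, hF⟩ := exists_choice
    (fun s o : Q × Bool => (s.2 = true ∧ s = o) ∨ (s.2 = false ∧ Go u x s o)) (by
      rintro s o o' (⟨h1, rfl⟩ | ⟨h1, h2⟩) (⟨h3, rfl⟩ | ⟨h3, h4⟩)
      · rfl
      · simp [h1] at h3
      · simp [h1] at h3
      · exact h2.func hu hx h4)
  refine ⟨F, ?_⟩
  rintro y o ⟨⟨q, b⟩, h1, h2⟩
  suffices ∃ s ∈ dis x y, (s.2 = true ∧ s = o) ∨ (s.2 = false ∧ Go u x s o) by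
    obtain ⟨s, hs, h⟩ := this
    exact ⟨s, hs, hF _ _ h⟩
  cases b with
  | false =>
    rw [star_false] at h1 h2
    rcases h1 with ⟨h1, h3⟩ | ⟨q', h1, h3⟩
    · exact ⟨o, ⟨_, h3, fun h => h2 (Or.inl ⟨h1, h⟩)⟩, Or.inl ⟨h1, rfl⟩⟩
    · by_cases hy : y (q, false) (q', false)
      · exact h3.diff_right fun h => h2 (Or.inr ⟨q', hy, h⟩)
      · exact ⟨(q', false), ⟨_, h1, hy⟩, Or.inr ⟨rfl, h3⟩⟩
  | true =>
    rw [star_true] at h1 h2
    rcases h1 with h1 | ⟨q', h1, h3⟩
    · exact absurd (Or.inl h1) h2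
    · exact h3.diff_right fun h => h2 (Or.inr ⟨q', h1, h⟩)

theorem ll_of_absorb {f x : Beh Q} (h : star f x = x) {q q' : Q}
    (h1 : f (q, true) (q', false)) : x (q, true) (q', false) := by
  rw [← h, star_true]
  exact Or.inl ⟨rfl, h1⟩

theorem rr_of_absorb {f x : Beh Q} (h : star x f = x) {q q' : Q}
    (h1 : f (q, false) (q', true)) : x (q, false) (q', true) := by
  rw [← h, star_false]
  exact Or.inl ⟨rfl, h1⟩

theorem Go.transfer_left {f x z : Beh Q} (h : star x f = x) {m o : Q × Bool}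
    (hg : Go f z m o) (ho : o.2 = true) : Go x z m o := by
  induction hg with
  | rr q q' h1 => exact Go.rr q q' h1
  | rl q q' o h1 _ ih => exact Go.rl q q' o h1 (ih ho)
  | ll q q' h1 => simp at ho
  | lr q q' o h1 _ ih => exact Go.lr q q' o (rr_of_absorb h h1) (ih ho)

theorem Go.transfer_right {f y z : Beh Q} (h : star f y = y) {m o : Q × Bool}
    (hg : Go z f m o) (ho : o.2 = false) : Go z y m o := by
  induction hg with
  | ll q q' h1 => exact Go.ll q q' h1
  | lr q q' o h1 _ ih => exact Go.lr q q' o h1 (ih ho)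
  | rr q q' h1 => simp at ho
  | rl q q' o h1 _ ih => exact Go.rl q q' o (ll_of_absorb h h1) (ih ho)

theorem Go.last_true {x y : Beh Q} {m o : Q × Bool} (hg : Go x y m o) (ho : o.2 = true) :
    ∃ q, y (q, true) o := by
  induction hg with
  | rr q q' h1 => exact ⟨q, h1⟩
  | rl q q' o h1 _ ih => exact ih ho
  | ll q q' h1 => simp at ho
  | lr q q' o h1 _ ih => exact ih ho

theorem Go.last_false {x y : Beh Q} {m o : Q × Bool} (hg : Go x y m o) (ho : o.2 = false) :
    ∃ q, x (q, false) o := by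
  induction hg with
  | ll q q' h1 => exact ⟨q, h1⟩
  | rl q q' o h1 _ ih => exact ih ho
  | rr q q' h1 => simp at ho
  | lr q q' o h1 _ ih => exact ih ho

theorem go_of_true {f y : Beh Q} (hf : Func f) (h : star f y = y) {q q' : Q}
    (h1 : f (q, true) (q', true)) (h2 : y (q, true) (q', true)) :
    Go f y (q', true) (q', true) := by
  rw [← h, star_true] at h2
  rcases h2 with ⟨h2, _⟩ | ⟨q'', h2, h3⟩
  · simp at h2
  · have := hf _ _ _ h1 h2
    simp only [Prod.mk.injEq, and_true] at this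
    subst this
    exact h3

theorem go_of_false {f x : Beh Q} (hf : Func f) (h : star x f = x) {q q' : Q}
    (h1 : f (q, false) (q', false)) (h2 : x (q, false) (q', false)) :
    Go x f (q', false) (q', false) := by
  rw [← h, star_false] at h2
  rcases h2 with ⟨h2, _⟩ | ⟨q'', h2, h3⟩
  · simp at h2
  · have := hf _ _ _ h1 h2
    simp only [Prod.mk.injEq, and_true] at this
    subst this
    exact h3

theorem dis_mul {f x y : Beh Q} (hf : Func f) (hx2 : star x f = x)
    (hy1 : star f y = y) : dis f (star x y) ⊆ dis f x ∪ dis f y := by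
  rintro ⟨q', b'⟩ ⟨⟨q, b⟩, h1, h2⟩
  by_contra hn
  have hx : x (q, b) (q', b') := by
    by_contra h
    exact hn (Or.inl ⟨_, h1, h⟩)
  have hy : y (q, b) (q', b') := by
    by_contra h
    exact hn (Or.inr ⟨_, h1, h⟩)
  apply h2
  cases b <;> cases b'
  · rw [star_false]
    exact Or.inr ⟨q', hy, (go_of_false hf hx2 h1 hx).transfer_right hy1 rfl⟩
  · rw [star_false]
    exact Or.inl ⟨rfl, hy⟩
  · rw [star_true]
    exact Or.inl ⟨rfl, hx⟩
  · rw [star_true]
    exact Or.inr ⟨q', hx, (go_of_true hf hy1 h1 hy).transfer_left hx2 rfl⟩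

theorem eq_of_dis_empty {f x : Beh Q} (hx : Func x) (h1 : star f x = x) (h2 : star x f = x)
    (h : dis f x = ∅) : x = f := by
  have hfx : ∀ d o, f d o → x d o := by
    intro d o hf
    by_contra hn
    have : o ∈ dis f x := ⟨d, hf, hn⟩
    rw [h] at this
    exact this
  funext d o
  apply propext
  refine ⟨fun hd => ?_, hfx d o⟩
  obtain ⟨q, b⟩ := d
  cases b with
  | true =>
    have hd' := hd
    rw [← h1, star_true] at hd'
    rcases hd' with ⟨_, h3⟩ | ⟨q', h3, _⟩
    · exact h3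
    · rw [hx _ _ _ hd (hfx _ _ h3)]; exact h3
  | false =>
    have hd' := hd
    rw [← h2, star_false] at hd'
    rcases hd' with ⟨_, h3⟩ | ⟨q', h3, _⟩
    · exact h3
    · rw [hx _ _ _ hd (hfx _ _ h3)]; exact h3

theorem thr_drop [Finite Q] (f y : Beh Q) : (thr f).ncard ≤ (thr y).ncard + (dis f y).ncard := by
  refine le_trans (Set.ncard_le_ncard ?_ (Set.toFinite _)) (Set.ncard_union_le _ _)
  rintro o ⟨d, h1, h2⟩
  by_cases h : y d o
  · exact Or.inl ⟨d, h1, h⟩
  · exact Or.inr ⟨d, h2, h⟩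

theorem dis_idem [Finite Q] {f x : Beh Q} (hf : Func f) (hx : Func x) (h1 : star f x = x)
    (h2 : star x f = x) (hxx : star x x = x) :
    (dis f x).ncard + 2 * (thr x).ncard ≤ 2 * (thr f).ncard := by
  let H : Q × Bool → Q × Bool → Prop := fun m o =>
    (m.2 = true ∧ Go f x m o) ∨ (m.2 = false ∧ Go x f m o)
  obtain ⟨G, hG⟩ := exists_choice H (by
    rintro s o o' (⟨a1, a2⟩ | ⟨a1, a2⟩) (⟨a3, a4⟩ | ⟨a3, a4⟩)
    · exact a2.func hf hx a4
    · simp [a1] at a3
    · simp [a1] at a3
    · exact a2.func hx hf a4)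
  let Dom : Set (Q × Bool) := {m | m ∈ thr f ∧ ∃ o, o.2 = m.2 ∧ H m o}
  have hD : Dom ⊆ thr f := fun m hm => hm.1
  have hxD : thr x ⊆ G '' Dom := by
    rintro ⟨q', b'⟩ ⟨⟨q, b⟩, a1, a2⟩
    simp only at a1
    subst a1
    cases b with
    | true =>
      rw [← h1, star_true] at a2
      rcases a2 with ⟨a2, _⟩ | ⟨q'', a2, a3⟩
      · simp at a2
      · exact ⟨(q'', true), ⟨⟨(q, true), rfl, a2⟩, (q', true), rfl, Or.inl ⟨rfl, a3⟩⟩,
          hG _ _ (Or.inl ⟨rfl, a3⟩)⟩
    | false =>
      rw [← h2, star_false] at a2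
      rcases a2 with ⟨a2, _⟩ | ⟨q'', a2, a3⟩
      · simp at a2
      · exact ⟨(q'', false), ⟨⟨(q, false), rfl, a2⟩, (q', false), rfl, Or.inr ⟨rfl, a3⟩⟩,
          hG _ _ (Or.inr ⟨rfl, a3⟩)⟩
  have hxf : thr x ⊆ thr f := by
    rintro ⟨q', b'⟩ ⟨⟨q, b⟩, a1, a2⟩
    simp only at a1
    subst a1
    cases b with
    | true =>
      rw [← h2, star_true] at a2
      rcases a2 with ⟨a2, _⟩ | ⟨q'', _, a3⟩
      · simp at a2
      · obtain ⟨q0, h0⟩ := a3.last_true rfl
        exact ⟨(q0, true), rfl, h0⟩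
    | false =>
      rw [← h1, star_false] at a2
      rcases a2 with ⟨a2, _⟩ | ⟨q'', _, a3⟩
      · simp at a2
      · obtain ⟨q0, h0⟩ := a3.last_false rfl
        exact ⟨(q0, false), rfl, h0⟩
  have hsub : dis f x ⊆ (thr f \ thr x) ∪ (thr f \ Dom) := by
    rintro ⟨q', b'⟩ ⟨⟨q, b⟩, a1, a2⟩
    have hb : b = b' := by
      cases b <;> cases b'
      · rfl
      · exact absurd (rr_of_absorb h2 a1) a2
      · exact absurd (ll_of_absorb h1 a1) a2
      · rfl
    subst hb
    have ht : (q', b) ∈ thr f := ⟨(q, b), rfl, a1⟩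
    by_contra hn
    simp only [Set.mem_union, Set.mem_sdiff, not_or, not_and, not_not] at hn
    obtain ⟨⟨q0, b0⟩, a3, a4⟩ := hn.1 ht
    simp only at a3
    subst a3
    obtain ⟨_, o, a5, a6⟩ := hn.2 ht
    apply a2
    cases b0 with
    | true =>
      rcases a6 with ⟨_, a6⟩ | ⟨a6, _⟩
      swap
      · simp at a6
      have a7 := go_of_true hx hxx a4 a4
      have a8 := a7.func hx hx (a6.transfer_left h2 a5)
      rw [← a8] at a6
      rw [← h1, star_true]
      exact Or.inr ⟨q', a1, a6⟩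
    | false =>
      rcases a6 with ⟨a6, _⟩ | ⟨_, a6⟩
      · simp at a6
      have a7 := go_of_false hx hxx a4 a4
      have a8 := a7.func hx hx (a6.transfer_right h1 a5)
      rw [← a8] at a6
      rw [← h2, star_false]
      exact Or.inr ⟨q', a1, a6⟩
  have e1 := Set.ncard_le_ncard hsub (Set.toFinite _)
  have e2 := Set.ncard_union_le (thr f \ thr x) (thr f \ Dom)
  have e3 := Set.ncard_sdiff_add_ncard_of_subset hxf (Set.toFinite _)
  have e4 := Set.ncard_sdiff_add_ncard_of_subset hD (Set.toFinite _)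
  have e5 := (Set.ncard_le_ncard hxD (Set.toFinite _)).trans
    (Set.ncard_image_le (f := G) (s := Dom) (Set.toFinite _))
  omega

/-- Moves, encoded: `none` stay, `some true` right, `some false` left. -/
inductive Run {C : Type} (δ : Q → C → Q → Option Bool → Prop) :
    List C → List C → Q × Bool → Q × Bool → Prop
  | exitR (l : List C) (q : Q) : Run δ l [] (q, true) (q, true)
  | exitL (r : List C) (q : Q) : Run δ [] r (q, false) (q, false)
  | right (l : List C) (s : C) (r : List C) (q q' : Q) (o : Q × Bool) :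
      δ q s q' (some true) → Run δ (s :: l) r (q', true) o → Run δ l (s :: r) (q, true) o
  | stay (l : List C) (s : C) (r : List C) (q q' : Q) (o : Q × Bool) :
      δ q s q' none → Run δ l (s :: r) (q', true) o → Run δ l (s :: r) (q, true) o
  | left (l : List C) (s : C) (r : List C) (q q' : Q) (o : Q × Bool) :
      δ q s q' (some false) → Run δ l (s :: r) (q', false) o → Run δ l (s :: r) (q, true) o
  | back (l : List C) (s : C) (r : List C) (q : Q) (o : Q × Bool) :
      Run δ l (s :: r) (q, true) o → Run δ (s :: l) r (q, false) o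

section RunLemmas

variable {C : Type} {δ : Q → C → Q → Option Bool → Prop}

theorem Run.func (hδ : ∀ q s q1 m1 q2 m2, δ q s q1 m1 → δ q s q2 m2 → q1 = q2 ∧ m1 = m2)
    {l r : List C} {d o o' : Q × Bool} (h : Run δ l r d o) (h' : Run δ l r d o') : o = o' := by
  induction h generalizing o' with
  | exitR l q => cases h'; rfl
  | exitL r q => cases h'; rfl
  | right l s r q q' o h1 _ ih =>
    cases h' with
    | right _ _ _ _ q2 _ h2 h3 =>
      obtain ⟨rfl, _⟩ := hδ _ _ _ _ _ _ h1 h2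
      exact ih h3
    | stay _ _ _ _ q2 _ h2 h3 => simpa using (hδ _ _ _ _ _ _ h1 h2).2
    | left _ _ _ _ q2 _ h2 h3 => simpa using (hδ _ _ _ _ _ _ h1 h2).2
  | stay l s r q q' o h1 _ ih =>
    cases h' with
    | right _ _ _ _ q2 _ h2 h3 => simpa using (hδ _ _ _ _ _ _ h1 h2).2
    | stay _ _ _ _ q2 _ h2 h3 =>
      obtain ⟨rfl, _⟩ := hδ _ _ _ _ _ _ h1 h2
      exact ih h3
    | left _ _ _ _ q2 _ h2 h3 => simpa using (hδ _ _ _ _ _ _ h1 h2).2
  | left l s r q q' o h1 _ ih =>
    cases h' with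
    | right _ _ _ _ q2 _ h2 h3 => simpa using (hδ _ _ _ _ _ _ h1 h2).2
    | stay _ _ _ _ q2 _ h2 h3 => simpa using (hδ _ _ _ _ _ _ h1 h2).2
    | left _ _ _ _ q2 _ h2 h3 =>
      obtain ⟨rfl, _⟩ := hδ _ _ _ _ _ _ h1 h2
      exact ih h3
  | back l s r q o _ ih =>
    cases h' with
    | back _ _ _ _ _ h3 => exact ih h3

theorem Run.extend {l r : List C} {d o' : Q × Bool} (h : Run δ l r d o') (l2 r2 : List C)
    (o : Q × Bool) (h1 : o'.2 = true → Run δ (r.reverse ++ l ++ l2) r2 o' o)
    (h2 : o'.2 = false → Run δ l2 (l.reverse ++ r ++ r2) o' o) :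
    Run δ (l ++ l2) (r ++ r2) d o := by
  induction h with
  | exitR l q => simpa using h1 rfl
  | exitL r q => simpa using h2 rfl
  | right l s r q q' o' a1 _ ih =>
    exact Run.right _ s _ q q' o a1 (ih (by simpa using h1) (by simpa using h2))
  | stay l s r q q' o' a1 _ ih => exact Run.stay _ s _ q q' o a1 (ih h1 h2)
  | left l s r q q' o' a1 _ ih => exact Run.left _ s _ q q' o a1 (ih h1 h2)
  | back l s r q o' _ ih =>
    exact Run.back _ s _ q o (ih (by simpa using h1) (by simpa using h2))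

/-- The behaviour of a tape segment. -/
def beh (δ : Q → C → Q → Option Bool → Prop) (z : List C) : Beh Q := fun d o =>
  (d.2 = true ∧ Run δ [] z d o) ∨ (d.2 = false ∧ Run δ z.reverse [] d o)

theorem beh_true {z : List C} {q : Q} {o : Q × Bool} :
    beh δ z (q, true) o ↔ Run δ [] z (q, true) o := by simp [beh]

theorem beh_false {z : List C} {q : Q} {o : Q × Bool} :
    beh δ z (q, false) o ↔ Run δ z.reverse [] (q, false) o := by simp [beh]

theorem run_of_go {u v : List C} {m o : Q × Bool} (h : Go (beh δ u) (beh δ v) m o) :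
    Run δ u.reverse v m o := by
  induction h with
  | rr q q' h1 =>
    have := (beh_true.1 h1).extend u.reverse [] (q', true) (fun _ => Run.exitR _ _)
      (fun h => by simp at h)
    simpa using this
  | rl q q' o h1 _ ih =>
    have := (beh_true.1 h1).extend u.reverse [] o (fun h => by simp at h)
      (fun _ => by simpa using ih)
    simpa using this
  | ll q q' h1 =>
    have := (beh_false.1 h1).extend [] v (q', false) (fun h => by simp at h)
      (fun _ => Run.exitL _ _)
    simpa using this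
  | lr q q' o h1 _ ih =>
    have := (beh_false.1 h1).extend [] v o (fun _ => by simpa using ih)
      (fun h => by simp at h)
    simpa using this

theorem split_run (u v : List C) {L R : List C} {d o : Q × Bool} (h : Run δ L R d o) :
    (∀ r, R = r ++ v → L.reverse ++ r = u → ∃ o', Run δ L r d o' ∧
      ((o'.2 = false ∧ o = o') ∨ (o'.2 = true ∧ Go (beh δ u) (beh δ v) o' o))) ∧
    (∀ l, L = l ++ u.reverse → l.reverse ++ R = v → ∃ o', Run δ l R d o' ∧
      ((o'.2 = true ∧ o = o') ∨ (o'.2 = false ∧ Go (beh δ u) (beh δ v) o' o))) := by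
  have key1 : ∀ (L R : List C) (q : Q) (o : Q × Bool),
      (∀ l, L = l ++ u.reverse → l.reverse ++ R = v → ∃ o', Run δ l R (q, true) o' ∧
        ((o'.2 = true ∧ o = o') ∨ (o'.2 = false ∧ Go (beh δ u) (beh δ v) o' o))) →
      R = [] ++ v → L.reverse ++ [] = u → ∃ o', Run δ L [] (q, true) o' ∧
        ((o'.2 = false ∧ o = o') ∨ (o'.2 = true ∧ Go (beh δ u) (beh δ v) o' o)) := by
    intro L R q o hB e1 e2
    obtain ⟨⟨q', b⟩, a1, a2⟩ := hB [] (by rw [← e2]; simp) (by simpa using e1)
    simp only [List.nil_append] at e1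
    subst e1
    refine ⟨(q, true), Run.exitR _ _, Or.inr ⟨rfl, ?_⟩⟩
    rcases a2 with ⟨a2, rfl⟩ | ⟨a2, a3⟩
    · simp only at a2
      subst a2
      exact Go.rr _ _ (beh_true.2 a1)
    · simp only at a2
      subst a2
      exact Go.rl _ _ _ (beh_true.2 a1) a3
  have key2 : ∀ (L R : List C) (q : Q) (o : Q × Bool),
      (∀ r, R = r ++ v → L.reverse ++ r = u → ∃ o', Run δ L r (q, false) o' ∧
        ((o'.2 = false ∧ o = o') ∨ (o'.2 = true ∧ Go (beh δ u) (beh δ v) o' o))) →
      L = [] ++ u.reverse → [].reverse ++ R = v → ∃ o', Run δ [] R (q, false) o' ∧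
        ((o'.2 = true ∧ o = o') ∨ (o'.2 = false ∧ Go (beh δ u) (beh δ v) o' o)) := by
    intro L R q o hA e1 e2
    obtain ⟨⟨q', b⟩, a1, a2⟩ := hA [] (by rw [← e2]; simp) (by rw [e1]; simp)
    simp only [List.nil_append] at e1
    subst e1
    refine ⟨(q, false), Run.exitL _ _, Or.inr ⟨rfl, ?_⟩⟩
    rcases a2 with ⟨a2, rfl⟩ | ⟨a2, a3⟩
    · simp only at a2
      subst a2
      exact Go.ll _ _ (beh_false.2 a1)
    · simp only at a2
      subst a2
      exact Go.lr _ _ _ (beh_false.2 a1) a3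
  induction h with
  | exitR L q =>
    have hB : ∀ l, L = l ++ u.reverse → l.reverse ++ [] = v → ∃ o', Run δ l [] (q, true) o' ∧
      ((o'.2 = true ∧ (q, true) = o') ∨ (o'.2 = false ∧ Go (beh δ u) (beh δ v) o' (q, true))) :=
      fun l _ _ => ⟨(q, true), Run.exitR _ _, Or.inl ⟨rfl, rfl⟩⟩
    refine ⟨?_, hB⟩
    intro r e1 e2
    have : r = [] := by
      have := congrArg List.length e1
      simp only [List.length_nil, List.length_append] at this
      exact List.length_eq_zero_iff.1 (by omega)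
    subst this
    exact key1 _ _ _ _ hB e1 e2
  | exitL R q =>
    have hA : ∀ r, R = r ++ v → [].reverse ++ r = u → ∃ o', Run δ [] r (q, false) o' ∧
      ((o'.2 = false ∧ (q, false) = o') ∨ (o'.2 = true ∧ Go (beh δ u) (beh δ v) o' (q, false))) :=
      fun l _ _ => ⟨(q, false), Run.exitL _ _, Or.inl ⟨rfl, rfl⟩⟩
    refine ⟨hA, ?_⟩
    intro l e1 e2
    have : l = [] := by
      have := congrArg List.length e1
      simp only [List.length_nil, List.length_append] at this
      exact List.length_eq_zero_iff.1 (by omega)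
    subst this
    exact key2 _ _ _ _ hA e1 e2
  | right L s R q q' o a1 _ ih =>
    have hB : ∀ l, L = l ++ u.reverse → l.reverse ++ s :: R = v →
        ∃ o', Run δ l (s :: R) (q, true) o' ∧
        ((o'.2 = true ∧ o = o') ∨ (o'.2 = false ∧ Go (beh δ u) (beh δ v) o' o)) := by
      intro l e1 e2
      obtain ⟨o', b1, b2⟩ := ih.2 (s :: l) (by simp [e1]) (by simpa using e2)
      exact ⟨o', Run.right _ _ _ _ _ _ a1 b1, b2⟩
    refine ⟨?_, hB⟩
    intro r e1 e2
    cases r with
    | nil => exact key1 _ _ _ _ hB e1 e2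
    | cons s' r =>
      simp only [List.cons_append, List.cons.injEq] at e1
      obtain ⟨rfl, e1⟩ := e1
      obtain ⟨o', b1, b2⟩ := ih.1 r e1 (by simpa using e2)
      exact ⟨o', Run.right _ _ _ _ _ _ a1 b1, b2⟩
  | stay L s R q q' o a1 _ ih =>
    have hB : ∀ l, L = l ++ u.reverse → l.reverse ++ s :: R = v →
        ∃ o', Run δ l (s :: R) (q, true) o' ∧
        ((o'.2 = true ∧ o = o') ∨ (o'.2 = false ∧ Go (beh δ u) (beh δ v) o' o)) := by
      intro l e1 e2
      obtain ⟨o', b1, b2⟩ := ih.2 l e1 e2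
      exact ⟨o', Run.stay _ _ _ _ _ _ a1 b1, b2⟩
    refine ⟨?_, hB⟩
    intro r e1 e2
    cases r with
    | nil => exact key1 _ _ _ _ hB e1 e2
    | cons s' r =>
      have e1' := e1
      simp only [List.cons_append, List.cons.injEq] at e1
      obtain ⟨rfl, e1⟩ := e1
      obtain ⟨o', b1, b2⟩ := ih.1 (s :: r) e1' e2
      exact ⟨o', Run.stay _ _ _ _ _ _ a1 b1, b2⟩
  | left L s R q q' o a1 _ ih =>
    have hB : ∀ l, L = l ++ u.reverse → l.reverse ++ s :: R = v →
        ∃ o', Run δ l (s :: R) (q, true) o' ∧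
        ((o'.2 = true ∧ o = o') ∨ (o'.2 = false ∧ Go (beh δ u) (beh δ v) o' o)) := by
      intro l e1 e2
      obtain ⟨o', b1, b2⟩ := ih.2 l e1 e2
      exact ⟨o', Run.left _ _ _ _ _ _ a1 b1, b2⟩
    refine ⟨?_, hB⟩
    intro r e1 e2
    cases r with
    | nil => exact key1 _ _ _ _ hB e1 e2
    | cons s' r =>
      have e1' := e1
      simp only [List.cons_append, List.cons.injEq] at e1
      obtain ⟨rfl, e1⟩ := e1
      obtain ⟨o', b1, b2⟩ := ih.1 (s :: r) e1' e2
      exact ⟨o', Run.left _ _ _ _ _ _ a1 b1, b2⟩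
  | back L s R q o _ ih =>
    have hA : ∀ r, R = r ++ v → (s :: L).reverse ++ r = u →
        ∃ o', Run δ (s :: L) r (q, false) o' ∧
        ((o'.2 = false ∧ o = o') ∨ (o'.2 = true ∧ Go (beh δ u) (beh δ v) o' o)) := by
      intro r e1 e2
      obtain ⟨o', b1, b2⟩ := ih.1 (s :: r) (by simp [e1]) (by simpa using e2)
      exact ⟨o', Run.back _ _ _ _ _ b1, b2⟩
    refine ⟨hA, ?_⟩
    intro l e1 e2
    cases l with
    | nil => exact key2 _ _ _ _ hA e1 e2
    | cons s' l =>
      simp only [List.cons_append, List.cons.injEq] at e1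
      obtain ⟨rfl, e1⟩ := e1
      obtain ⟨o', b1, b2⟩ := ih.2 l e1 (by simpa using e2)
      exact ⟨o', Run.back _ _ _ _ _ b1, b2⟩

theorem beh_append (u v : List C) : beh δ (u ++ v) = star (beh δ u) (beh δ v) := by
  funext d o
  obtain ⟨q, b⟩ := d
  apply propext
  cases b with
  | true =>
    rw [star_true, beh_true]
    constructor
    · intro h
      obtain ⟨⟨q', b'⟩, a1, a2⟩ := (split_run u v h).1 u rfl (by simp)
      rcases a2 with ⟨a2, rfl⟩ | ⟨a2, a3⟩
      · exact Or.inl ⟨a2, beh_true.2 a1⟩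
      · simp only at a2
        subst a2
        exact Or.inr ⟨q', beh_true.2 a1, a3⟩
    · rintro (⟨a1, a2⟩ | ⟨q', a1, a2⟩)
      · obtain ⟨q', b'⟩ := o
        simp only at a1
        subst a1
        have := (beh_true.1 a2).extend [] v (q', false) (fun h => by simp at h)
          (fun _ => Run.exitL _ _)
        simpa using this
      · have := (beh_true.1 a1).extend [] v o (fun _ => by simpa using run_of_go a2)
          (fun h => by simp at h)
        simpa using this
  | false =>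
    rw [star_false, beh_false]
    constructor
    · intro h
      obtain ⟨⟨q', b'⟩, a1, a2⟩ := (split_run u v h).2 v.reverse (by simp) (by simp)
      rcases a2 with ⟨a2, rfl⟩ | ⟨a2, a3⟩
      · exact Or.inl ⟨a2, beh_false.2 a1⟩
      · simp only at a2
        subst a2
        exact Or.inr ⟨q', beh_false.2 a1, a3⟩
    · rintro (⟨a1, a2⟩ | ⟨q', a1, a2⟩)
      · obtain ⟨q', b'⟩ := o
        simp only at a1
        subst a1
        have := (beh_false.1 a2).extend u.reverse [] (q', true) (fun _ => Run.exitR _ _)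
          (fun h => by simp at h)
        simpa using this
      · have := (beh_false.1 a1).extend u.reverse [] o (fun h => by simp at h)
          (fun _ => by simpa using run_of_go a2)
        simpa using this

theorem beh_func (hδ : ∀ q s q1 m1 q2 m2, δ q s q1 m1 → δ q s q2 m2 → q1 = q2 ∧ m1 = m2)
    (z : List C) : Func (beh δ z) := by
  rintro ⟨q, b⟩ o o' h h'
  cases b with
  | true => exact (beh_true.1 h).func hδ (beh_true.1 h')
  | false => exact (beh_false.1 h).func hδ (beh_false.1 h')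

end RunLemmas

end Vale.Agent.P343
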