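import Vale.Agent.P343.Defs
import Vale.Agent.P343.Algebra
import Vale.Agent.P343.Zigzag

namespace Vale.Agent.P343

open Relation

section BehMonoid

variable {Q C : Type}

/-- The monoid of behaviours of tape segments. -/
def BM (δ : Q → C → Q → Option Bool → Prop) : Type := {x : Beh Q // ∃ z, beh δ z = x}

variable {δ : Q → C → Q → Option Bool → Prop}

instance : Monoid (BM δ) where
  mul x y := ⟨star x.1 y.1, by
    obtain ⟨u, hu⟩ := x.2
    obtain ⟨v, hv⟩ := y.2
    exact ⟨u ++ v, by rw [beh_append, hu, hv]⟩⟩
  one := ⟨beh δ [], [], rfl⟩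
  mul_assoc x y z := by
    obtain ⟨_, u, rfl⟩ := x
    obtain ⟨_, v, rfl⟩ := y
    obtain ⟨_, w, rfl⟩ := z
    apply Subtype.ext
    change star (star (beh δ u) (beh δ v)) (beh δ w) = star (beh δ u) (star (beh δ v) (beh δ w))
    rw [← beh_append, ← beh_append, ← beh_append, ← beh_append, List.append_assoc]
  one_mul x := by
    obtain ⟨_, u, rfl⟩ := x
    apply Subtype.ext
    change star (beh δ []) (beh δ u) = beh δ u
    rw [← beh_append, List.nil_append]
  mul_one x := by
    obtain ⟨_, u, rfl⟩ := x
    apply Subtype.ext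
    change star (beh δ u) (beh δ []) = beh δ u
    rw [← beh_append, List.append_nil]

theorem BM.val_eq {x y z : BM δ} (h : x * y = z) : star x.1 y.1 = z.1 := by
  rw [← h]; rfl

instance [Finite Q] : Finite (BM δ) := by
  unfold BM
  infer_instance

/-- The element of the behaviour monoid given by a segment. -/
def BM.of (δ : Q → C → Q → Option Bool → Prop) (z : List C) : BM δ := ⟨beh δ z, z, rfl⟩

theorem BM.of_append (u v : List C) : BM.of δ (u ++ v) = BM.of δ u * BM.of δ v :=
  Subtype.ext (beh_append u v)

theorem BM.func (hδ : ∀ q s q1 m1 q2 m2, δ q s q1 m1 → δ q s q2 m2 → q1 = q2 ∧ m1 = m2)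
    (x : BM δ) : Func x.1 := by
  obtain ⟨_, u, rfl⟩ := x
  exact beh_func hδ u

/-- Rank data of the behaviour monoid of a deterministic machine. -/
noncomputable def bmRank [Finite Q]
    (hδ : ∀ q s q1 m1 q2 m2, δ q s q1 m1 → δ q s q2 m2 → q1 = q2 ∧ m1 = m2) :
    RankData (BM δ) (Q × Bool) where
  rk x := (thr x.1).ncard
  dis x y := dis x.1 y.1
  ctx u x v := by
    obtain ⟨F1, h1⟩ := dis_star_left (BM.func hδ x) (BM.func hδ u)
    obtain ⟨F2, h2⟩ := dis_star_right (BM.func hδ (u * x)) (BM.func hδ v)
    refine ⟨F2 ∘ F1, fun y => ?_⟩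
    rw [Set.image_comp]
    exact (h2 (u * y).1).trans (Set.image_mono (h1 y.1))
  mul f x y hf hx hy :=
    dis_mul (BM.func hδ f) (BM.val_eq (loc_right hf hx))
      (BM.val_eq (loc_left hf hy))
  idem f x hf hxx hx :=
    dis_idem (BM.func hδ f) (BM.func hδ x) (BM.val_eq (loc_left hf hx))
      (BM.val_eq (loc_right hf hx)) (BM.val_eq hxx)
  drop f y := thr_drop f.1 y.1
  eq_of_empty f x hf hx h :=
    Subtype.ext (eq_of_dis_empty (BM.func hδ x) (BM.val_eq (loc_left hf hx))
      (BM.val_eq (loc_right hf hx)) h)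
  self f := by
    ext o
    simp [dis]

end BehMonoid

section Link

variable {σ Q : Type}

/-- Encoding of moves. -/
def Move.enc : Move → Option Bool
  | Move.L => some false
  | Move.S => none
  | Move.R => some true

theorem Move.enc_inj {m m' : Move} (h : m.enc = m'.enc) : m = m' := by
  cases m <;> cases m' <;> simp_all [Move.enc]

/-- The modified machine: after accepting, run to the right in the extra state `none`. -/
def TwoWay.del (B : TwoWay σ Q) : Option Q → Cell σ → Option Q → Option Bool → Prop
  | none, _, q', m => q' = none ∧ m = some true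
  | some q, s, q', m => (q ∈ B.accept ∧ q' = none ∧ m = some true) ∨
      (q ∉ B.accept ∧ ∃ p mv, (p, mv) ∈ B.trans q s ∧ q' = some p ∧ m = mv.enc)

theorem TwoWay.del_det {B : TwoWay σ Q} (hB : B.IsDet) :
    ∀ q s q1 m1 q2 m2, B.del q s q1 m1 → B.del q s q2 m2 → q1 = q2 ∧ m1 = m2 := by
  intro q s q1 m1 q2 m2 h1 h2
  cases q with
  | none =>
    obtain ⟨rfl, rfl⟩ := h1
    obtain ⟨rfl, rfl⟩ := h2
    exact ⟨rfl, rfl⟩
  | some q =>
    rcases h1 with ⟨a1, rfl, rfl⟩ | ⟨a1, p, mv, a2, rfl, rfl⟩ <;>
      rcases h2 with ⟨b1, rfl, rfl⟩ | ⟨b1, p', mv', b2, rfl, rfl⟩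
    · exact ⟨rfl, rfl⟩
    · exact absurd a1 b1
    · exact absurd b1 a1
    · have := hB q s a2 b2
      simp only [Prod.mk.injEq] at this
      obtain ⟨rfl, rfl⟩ := this
      exact ⟨rfl, rfl⟩

theorem run_top (B : TwoWay σ Q) (r : List (Cell σ)) :
    ∀ l, Run B.del l r (none, true) (none, true) := by
  induction r with
  | nil => intro l; exact Run.exitR _ _
  | cons s r ih => intro l; exact Run.right _ _ _ _ none _ ⟨rfl, rfl⟩ (ih _)

theorem getElem?_mid {α : Type} (l r : List α) (s : α) :
    (l.reverse ++ s :: r)[l.length]? = some s := by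
  rw [List.getElem?_append_right (by simp)]
  simp

theorem tape_length (w : List σ) : (tape w).length = w.length + 2 := by
  simp [tape]

theorem tape_last (w : List σ) : (tape w)[w.length + 1]? = some Cell.right := by
  simp [tape]

theorem run_of_reach (B : TwoWay σ Q) (w : List σ) {q : Q} (hq : q ∈ B.accept) {i : ℕ}
    {c : Q × ℕ} (h : ReflTransGen (B.Step w) c (q, i)) :
    ∀ l s r, l.reverse ++ s :: r = tape w → l.length = c.2 →
      Run B.del l (s :: r) (some c.1, true) (none, true) := by
  induction h using ReflTransGen.head_induction_on with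
  | refl =>
    intro l s r _ _
    exact Run.right _ _ _ _ none _ (Or.inl ⟨hq, rfl, rfl⟩) (run_top B _ _)
  | @head c c' hst _ ih =>
    intro l s r e1 e2
    by_cases hc : c.1 ∈ B.accept
    · exact Run.right _ _ _ _ none _ (Or.inl ⟨hc, rfl, rfl⟩) (run_top B _ _)
    obtain ⟨s0, m, a1, a2, a3⟩ := hst
    have hs : s0 = s := by
      rw [← e1, ← e2, getElem?_mid] at a1
      exact (Option.some.inj a1).symm
    subst hs
    cases m with
    | S =>
      exact Run.stay _ _ _ _ (some c'.1) _ (Or.inr ⟨hc, _, _, a2, rfl, rfl⟩)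
        (ih l s0 r e1 (by rw [a3, e2]; rfl))
    | R =>
      cases r with
      | nil =>
        exfalso
        have hl := congrArg List.length e1
        rw [tape_length] at hl
        simp only [List.length_append, List.length_reverse, List.length_cons,
          List.length_nil] at hl
        have : c.2 = w.length + 1 := by omega
        rw [this, tape_last] at a1
        have a4 := Option.some.inj a1
        subst a4
        exact B.noRight _ _ a2
      | cons s' r =>
        exact Run.right _ _ _ _ (some c'.1) _ (Or.inr ⟨hc, _, _, a2, rfl, rfl⟩)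
          (ih (s0 :: l) s' r (by simpa using e1) (by rw [a3, ← e2]; rfl))
    | L =>
      cases l with
      | nil =>
        exfalso
        simp only [List.reverse_nil, List.nil_append, tape, List.cons.injEq] at e1
        rw [e1.1] at a2
        exact B.noLeft _ _ a2
      | cons s' l =>
        refine Run.left _ _ _ _ (some c'.1) _ (Or.inr ⟨hc, _, _, a2, rfl, rfl⟩) ?_
        exact Run.back _ _ _ _ _
          (ih l s' (s0 :: r) (by simpa using e1) (by rw [a3, ← e2]; rfl))

theorem reach_of_run (B : TwoWay σ Q) (w : List σ) {l r : List (Cell σ)}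
    {d o : Option Q × Bool} (h : Run B.del l r d o) (ho : o.1 = none) :
    ∀ q0, d.1 = some q0 → l.reverse ++ r = tape w →
      ∃ q ∈ B.accept, ∃ i, ReflTransGen (B.Step w)
        (q0, if d.2 then l.length else l.length - 1) (q, i) := by
  induction h with
  | exitR l q => intro q0 h1 _; simp only at h1 ho; rw [h1] at ho; cases ho
  | exitL r q => intro q0 h1 _; simp only at h1 ho; rw [h1] at ho; cases ho
  | right l s r q q' o a1 _ ih =>
    intro q0 h1 e
    simp only at h1
    subst h1
    rcases a1 with ⟨a1, _⟩ | ⟨_, p, mv, a2, rfl, a3⟩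
    · exact ⟨q0, a1, _, ReflTransGen.refl⟩
    · obtain ⟨q, hq, i, hi⟩ := ih ho p rfl (by simpa using e)
      have : mv = Move.R := Move.enc_inj a3.symm
      subst this
      refine ⟨q, hq, i, ReflTransGen.head ⟨s, Move.R, ?_, a2, ?_⟩ hi⟩
      · rw [← e]; exact getElem?_mid _ _ _
      · simp [Move.apply]
  | stay l s r q q' o a1 _ ih =>
    intro q0 h1 e
    simp only at h1
    subst h1
    rcases a1 with ⟨a1, _⟩ | ⟨_, p, mv, a2, rfl, a3⟩
    · exact ⟨q0, a1, _, ReflTransGen.refl⟩
    · obtain ⟨q, hq, i, hi⟩ := ih ho p rfl e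
      have : mv = Move.S := Move.enc_inj a3.symm
      subst this
      refine ⟨q, hq, i, ReflTransGen.head ⟨s, Move.S, ?_, a2, ?_⟩ hi⟩
      · rw [← e]; exact getElem?_mid _ _ _
      · simp [Move.apply]
  | left l s r q q' o a1 _ ih =>
    intro q0 h1 e
    simp only at h1
    subst h1
    rcases a1 with ⟨a1, _⟩ | ⟨_, p, mv, a2, rfl, a3⟩
    · exact ⟨q0, a1, _, ReflTransGen.refl⟩
    · obtain ⟨q, hq, i, hi⟩ := ih ho p rfl e
      have : mv = Move.L := Move.enc_inj a3.symm
      subst this
      refine ⟨q, hq, i, ReflTransGen.head ⟨s, Move.L, ?_, a2, ?_⟩ hi⟩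
      · rw [← e]; exact getElem?_mid _ _ _
      · simp [Move.apply]
  | back l s r q o _ ih =>
    intro q0 h1 e
    obtain ⟨q, hq, i, hi⟩ := ih ho q0 h1 (by simpa using e)
    exact ⟨q, hq, i, by simpa using hi⟩

theorem mem_lang_iff (B : TwoWay σ Q) (w : List σ) :
    w ∈ B.lang ↔ beh B.del (tape w) (some B.start, true) (none, true) := by
  rw [beh_true]
  constructor
  · rintro ⟨q, hq, i, h⟩
    exact run_of_reach B w hq h [] Cell.left _ rfl rfl
  · intro h
    exact reach_of_run B w h rfl B.start rfl rfl

end Link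

section Owl

/-- Letters: binary relations on `h` points. -/
abbrev Letter (h : ℕ) : Type := Fin h → Fin h → Prop

/-- The relation computed by a word. -/
def wordRel {h : ℕ} : List (Letter h) → Letter h
  | [] => fun p q => p = q
  | a :: w => Comp a (wordRel w)

theorem wordRel_append {h : ℕ} (u v : List (Letter h)) :
    wordRel (u ++ v) = Comp (wordRel u) (wordRel v) := by
  induction u with
  | nil =>
    funext p q
    apply propext
    constructor
    · intro h; exact ⟨p, rfl, h⟩
    · rintro ⟨_, rfl, h⟩; exact h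
  | cons a u ih => simp only [List.cons_append, wordRel, ih, comp_assoc]

theorem wordRel_single {h : ℕ} (a : Letter h) : wordRel [a] = a := by
  funext p q
  apply propext
  constructor
  · rintro ⟨_, h, rfl⟩; exact h
  · intro h; exact ⟨q, h, rfl⟩

/-- The one-way liveness automaton: `none` is the start state, `some none` accepts. -/
def owl (h : ℕ) : TwoWay (Letter h) (Option (Option (Fin h))) where
  start := none
  accept := {some none}
  trans
    | none, Cell.left => {c | ∃ p, c = (some (some p), Move.R)}
    | some (some p), Cell.letter a => {c | ∃ q, a p q ∧ c = (some (some q), Move.R)}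
    | some (some _), Cell.right => {(some none, Move.S)}
    | _, _ => ∅
  noLeft q q' := by rcases q with _ | _ | _ <;> simp
  noRight q q' := by rcases q with _ | _ | _ <;> simp

theorem owl_oneWay (h : ℕ) : (owl h).IsOneWay := by
  intro q s q'
  rcases q with _ | _ | _ <;> cases s <;> simp [owl]

theorem tape_get {σ : Type} (w : List σ) (i : ℕ) (s : Cell σ) (h : (tape w)[i + 1]? = some s) :
    (∃ a, w[i]? = some a ∧ s = Cell.letter a) ∨ (i = w.length ∧ s = Cell.right) := by
  simp only [tape, List.getElem?_cons_succ] at h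
  by_cases hi : i < w.length
  · rw [List.getElem?_append_left (by simpa using hi)] at h
    left
    refine ⟨w[i], by simp [hi], ?_⟩
    simp only [List.getElem?_map, List.getElem?_eq_getElem hi, Option.map_some] at h
    exact (Option.some.inj h).symm
  · rw [List.getElem?_append_right (by simpa using hi)] at h
    right
    simp only [List.length_map] at h
    rcases Nat.eq_zero_or_pos (i - w.length) with h0 | h0
    · rw [h0] at h
      exact ⟨by omega, by simpa using h.symm⟩
    · obtain ⟨k, hk⟩ : ∃ k, i - w.length = k + 1 := ⟨i - w.length - 1, by omega⟩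
      rw [hk] at h
      simp at h

theorem mem_owl (h : ℕ) (w : List (Letter h)) : w ∈ (owl h).lang ↔ ∃ p q, wordRel w p q := by
  constructor
  · rintro ⟨q, hq, i, hr⟩
    have inv : ∀ c, ReflTransGen ((owl h).Step w) ((owl h).start, 0) c →
        (c.1 = none → c.2 = 0) ∧
        (∀ p, c.1 = some (some p) → ∃ j, c.2 = j + 1 ∧ ∃ p0, wordRel (w.take j) p0 p) ∧
        (c.1 = some none → ∃ p q, wordRel w p q) := by
      intro c hc
      induction hc with
      | refl => simp [owl]
      | @tail c c' _ hst ih =>
        obtain ⟨s, m, a1, a2, a3⟩ := hst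
        obtain ⟨q0, i0⟩ := c
        obtain ⟨q1, i1⟩ := c'
        simp only at a1 a2 a3 ih ⊢
        rcases q0 with _ | _ | p
        · have := ih.1 rfl
          subst this
          simp only [tape, List.getElem?_cons_zero, Option.some.injEq] at a1
          subst a1
          obtain ⟨p, hp⟩ := a2
          simp only [Prod.mk.injEq] at hp
          obtain ⟨rfl, rfl⟩ := hp
          refine ⟨by simp, ?_, by simp⟩
          intro p' hp'
          simp only [Option.some.injEq] at hp'
          subst hp'
          exact ⟨0, a3, p, rfl⟩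
        · cases s <;> simp [owl] at a2
        · obtain ⟨j, rfl, p0, hp0⟩ := ih.2.1 p rfl
          rcases tape_get w j s a1 with ⟨a, b1, rfl⟩ | ⟨rfl, rfl⟩
          · obtain ⟨q, b2, hp⟩ := a2
            simp only [Prod.mk.injEq] at hp
            obtain ⟨rfl, rfl⟩ := hp
            refine ⟨by simp, ?_, by simp⟩
            intro p' hp'
            simp only [Option.some.injEq] at hp'
            subst hp'
            refine ⟨j + 1, a3, p0, ?_⟩
            rw [List.take_add_one, b1, wordRel_append]
            exact ⟨p, hp0, by simpa [wordRel_single] using b2⟩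
          · have hp : (q1, m) = (some none, Move.S) := a2
            simp only [Prod.mk.injEq] at hp
            obtain ⟨rfl, rfl⟩ := hp
            refine ⟨by simp, by simp, fun _ => ⟨p0, p, by simpa using hp0⟩⟩
    exact (inv _ hr).2.2 hq
  · rintro ⟨p, q, hpq⟩
    have key : ∀ (v u : List (Letter h)) (p : Fin h), u ++ v = w → wordRel v p q →
        ReflTransGen ((owl h).Step w) (some (some p), u.length + 1)
          (some none, w.length + 1) := by
      intro v
      induction v with
      | nil =>
        intro u p e _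
        rw [List.append_nil] at e
        subst e
        exact ReflTransGen.single ⟨Cell.right, Move.S, tape_last u, rfl, rfl⟩
      | cons a v ih =>
        rintro u p e ⟨p', b1, b2⟩
        have := ih (u ++ [a]) p' (by simpa using e) b2
        refine ReflTransGen.head ⟨Cell.letter a, Move.R, ?_, ⟨p', b1, rfl⟩, ?_⟩ this
        · subst e
          simp [tape]
        · simp [Move.apply]
    refine ⟨some none, rfl, w.length + 1, ReflTransGen.head ⟨Cell.left, Move.R, rfl, ⟨p, rfl⟩, ?_⟩
      (key w [] p rfl hpq)⟩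
    rfl

theorem owl_lower (h : ℕ) (Q' : Type) [Fintype Q'] (B : TwoWay (Letter h) Q') (hB : B.IsDet)
    (hL : B.lang = (owl h).lang) : 2 ^ ((h - 2) / 15) ≤ 2 * (Fintype.card Q' + 1) := by
  by_cases h2 : h < 2
  · have : (h - 2) / 15 = 0 := by omega
    rw [this]
    omega
  have hacc : ∀ (p q : Fin h) (w : List (Letter h)), wordRel w p q ↔
      (BM.of B.del [Cell.left, Cell.letter (fun i j => i = p ∧ j = p)] *
        BM.of B.del (w.map Cell.letter) *
        BM.of B.del [Cell.letter (fun i j => i = q ∧ j = q), Cell.right]).1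
        (some B.start, true) (none, true) := by
    intro p q w
    rw [← BM.of_append, ← BM.of_append]
    have e : [Cell.left, Cell.letter (fun i j => i = p ∧ j = p)] ++ w.map Cell.letter ++
        [Cell.letter (fun i j => i = q ∧ j = q), Cell.right] =
        tape ([fun i j => i = p ∧ j = p] ++ w ++ [fun i j => i = q ∧ j = q]) := by
      simp [tape]
    rw [e]
    change _ ↔ beh B.del _ _ _
    rw [← mem_lang_iff, hL, mem_owl, wordRel_append, wordRel_append, wordRel_single,
      wordRel_single]
    constructor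
    · intro h1
      exact ⟨p, q, q, ⟨p, ⟨rfl, rfl⟩, h1⟩, rfl, rfl⟩
    · rintro ⟨_, _, _, ⟨_, ⟨rfl, rfl⟩, h1⟩, rfl, rfl⟩
      exact h1
  let S : Setup (BM B.del) (Fin h) :=
    { f := 1
      R := fun t b => ∃ w : List (Letter h), t = BM.of B.del (w.map Cell.letter) ∧ wordRel w = b
      idem := one_mul 1
      loc := fun t _ _ => by rw [one_mul, mul_one]
      one := ⟨[], rfl, rfl⟩
      mul := by
        rintro _ _ _ _ ⟨u, rfl, rfl⟩ ⟨v, rfl, rfl⟩
        exact ⟨u ++ v, by rw [List.map_append, BM.of_append], wordRel_append u v⟩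
      surj := fun b => ⟨_, [b], rfl, wordRel_single b⟩
      func := by
        rintro _ _ _ ⟨u, rfl, rfl⟩ ⟨v, e, rfl⟩
        funext p q
        apply propext
        rw [hacc, hacc, e] }
  let a : Fin h := ⟨0, by omega⟩
  let b : Fin h := ⟨1, by omega⟩
  obtain ⟨x, hx⟩ := S.surj (eps a b)
  have := lower_bound (bmRank (TwoWay.del_det hB)) ((h - 2) / 15) (Fin h)
    (by rw [Fintype.card_fin]; omega) S a b (by simp [a, b, Fin.ext_iff]) x hx
  refine this.trans ?_
  refine (Set.ncard_le_card _).trans ?_
  rw [Nat.card_eq_fintype_card]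
  simp only [Fintype.card_prod, Fintype.card_option, Fintype.card_bool]
  omega

end Owl

theorem poly_div_two_pow (p : Polynomial ℝ) :
    Filter.Tendsto (fun n : ℕ => p.eval (n : ℝ) / 2 ^ n) Filter.atTop (nhds 0) := by
  induction p using Polynomial.induction_on' with
  | add p q hp hq =>
    have := hp.add hq
    simp only [add_zero] at this
    refine this.congr fun n => ?_
    rw [Polynomial.eval_add, add_div]
  | monomial k a =>
    have := (tendsto_pow_const_div_const_pow_of_one_lt k (r := 2) (by norm_num)).const_mul a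
    simp only [mul_zero] at this
    refine this.congr fun n => ?_
    rw [Polynomial.eval_monomial, mul_div_assoc]

theorem exp_bound : ∀ h : ℕ, ∃ (σ : Type) (_ : Fintype σ) (Q : Type) (_ : Fintype Q)
    (A : TwoWay σ Q), A.IsOneWay ∧ Fintype.card Q = h + 2 ∧
    ∀ (Q' : Type) [Fintype Q'] (B : TwoWay σ Q'), B.IsDet → B.lang = A.lang →
      2 ^ ((h - 2) / 15) ≤ 2 * (Fintype.card Q' + 1) := by
  intro h
  classical
  exact ⟨Letter h, Fintype.ofFinite _, Option (Option (Fin h)), inferInstance, owl h,
    owl_oneWay h, by simp, owl_lower h⟩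

theorem no_poly : ¬ ∃ p : Polynomial ℝ, ∀ (σ : Type) [Fintype σ] (Q : Type) [Fintype Q]
    (A : TwoWay σ Q), A.IsOneWay → ∃ (Q' : Type) (_ : Fintype Q') (B : TwoWay σ Q'),
      B.IsDet ∧ B.lang = A.lang ∧ (Fintype.card Q' : ℝ) ≤ p.eval (Fintype.card Q : ℝ) := by
  rintro ⟨p, hp⟩
  have h1 := poly_div_two_pow
    (2 * (p.comp (Polynomial.C 15 * Polynomial.X + Polynomial.C 4) + 1))
  obtain ⟨n, hn⟩ := (h1.eventually (gt_mem_nhds (show (0 : ℝ) < 1 by norm_num))).exists
  obtain ⟨σ, _, Q, _, A, hA, hc, hlow⟩ := exp_bound (15 * n + 2)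
  obtain ⟨Q', _, B, hB, hL, hle⟩ := hp σ Q A hA
  have h2 := hlow Q' B hB hL
  have e : (15 * n + 2 - 2) / 15 = n := by omega
  rw [e] at h2
  have h3 : (2 : ℝ) ^ n ≤ 2 * ((Fintype.card Q' : ℝ) + 1) := by exact_mod_cast h2
  rw [hc] at hle
  rw [div_lt_one (by positivity)] at hn
  simp only [Polynomial.eval_mul, Polynomial.eval_add, Polynomial.eval_comp, Polynomial.eval_C,
    Polynomial.eval_X, Polynomial.eval_one, Polynomial.eval_ofNat] at hn
  have e2 : ((15 * n + 2 + 2 : ℕ) : ℝ) = 15 * n + 4 := by push_cast; ring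
  rw [e2] at hle
  linarith

end Vale.Agent.P343
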